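import Vale.Agent.P224.R2.H135.RelM
import Vale.Agent.P224.R2.H484.Cb2
import Vale.Agent.P224.R2.H684.AbsC1
import Vale.Agent.P224.R2.H684.AbsC2

/-!
The relative tails of the tables from the certificates.
-/

namespace Vale.Agent.P224.R2.H684

open MeasureTheory Set Filter Function Real Module Matrix Vale.Agent.P224
  Vale.Agent.P224.R2.H820 Vale.Agent.P224.R2.H582 Vale.Agent.P224.R2.H627
  Vale.Agent.P224.R2.H728 Vale.Agent.P224.R2.H484 Vale.Agent.P224.R2.H925
  Vale.Agent.P224.R2.H869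
open Vale.Agent.P224.SM2 hiding ker
open scoped Topology RealInnerProductSpace ContDiff Manifold

set_option linter.unusedSectionVars false

section

variable {V W M : Type*} [NormedAddCommGroup V] [InnerProductSpace ℝ V] [FiniteDimensional ℝ V]
  [NormedAddCommGroup W] [InnerProductSpace ℝ W] [FiniteDimensional ℝ W]
  [TopologicalSpace M] [ChartedSpace V M]
  [MeasurableSpace V] [BorelSpace V] [MeasurableSpace M] [BorelSpace M]
  [MeasurableSpace W] [BorelSpace W] [IsManifold 𝓘(ℝ, V) ∞ M]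
  [CompactSpace M] [T2Space M]

/-- **the relative tails**, `200 ≤ m ≤ 229` -/
theorem relF_200 [Nonempty M] (h1 : 200 ≤ finrank ℝ V) (h2 : finrank ℝ V ≤ 229)
    (hW : finrank ℝ W = finrank ℝ V + 2)
    {F : M → W} (hF : SphImm V F) (hmin : ∀ x n, IsUnitNormal V F x n → meanCurv V F x n = 0)
    {ν : ℝ} : H925.RelU (96 / 5 : ℚ) (53 / 4 : ℚ) V W M
      [(1 / 20, 3 / 200), (17 / 200, 1 / 50), (3 / 25, 3 / 100), (4 / 25, 9 / 100)]
      ν (finrank ℝ V) F := by
  have hx : ((1 / (230 : ℕ) : ℚ) : ℝ) ≤ 1 / (finrank ℝ V : ℝ) :=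
    H135.x_le (m2 := 230) (by omega) (by omega) (by norm_num) (by norm_num)
  exact H135.relU_cover (B := H484.bB200) (certs := H484.certsB200) (by decide +kernel)
    H684.okC_200_230 (by norm_num) (by omega) hx (by decide +kernel) (by omega) hW hF hmin
    (by show 200 ≤ finrank ℝ V; omega) (Or.inr (by show finrank ℝ V ≤ 400; omega))

/-- **the relative tails**, `230 ≤ m ≤ 249` -/
theorem relF_230 [Nonempty M] (h1 : 230 ≤ finrank ℝ V) (h2 : finrank ℝ V ≤ 249)
    (hW : finrank ℝ W = finrank ℝ V + 2)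
    {F : M → W} (hF : SphImm V F) (hmin : ∀ x n, IsUnitNormal V F x n → meanCurv V F x n = 0)
    {ν : ℝ} : H925.RelU (96 / 5 : ℚ) (53 / 4 : ℚ) V W M
      [(1 / 20, 3 / 200), (17 / 200, 9 / 500), (1 / 10, 1 / 40),
      (3 / 25, 3 / 100), (7 / 50, 19 / 500), (4 / 25, 3 / 50), (9 / 50, 9 / 100)]
      ν (finrank ℝ V) F := by
  have hx : ((1 / (250 : ℕ) : ℚ) : ℝ) ≤ 1 / (finrank ℝ V : ℝ) :=
    H135.x_le (m2 := 250) (by omega) (by omega) (by norm_num) (by norm_num)
  exact H135.relU_cover (B := H484.bB200) (certs := H484.certsB200) (by decide +kernel)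
    H684.okC_200_250 (by norm_num) (by omega) hx (by decide +kernel) (by omega) hW hF hmin
    (by show 200 ≤ finrank ℝ V; omega) (Or.inr (by show finrank ℝ V ≤ 400; omega))

/-- **the relative tails**, `250 ≤ m ≤ 299` -/
theorem relF_250 [Nonempty M] (h1 : 250 ≤ finrank ℝ V) (h2 : finrank ℝ V ≤ 299)
    (hW : finrank ℝ W = finrank ℝ V + 2)
    {F : M → W} (hF : SphImm V F) (hmin : ∀ x n, IsUnitNormal V F x n → meanCurv V F x n = 0)
    {ν : ℝ} : H925.RelU (96 / 5 : ℚ) (53 / 4 : ℚ) V W M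
      [(1 / 20, 3 / 200), (17 / 200, 9 / 500), (1 / 10, 1 / 40),
      (3 / 25, 3 / 100), (7 / 50, 19 / 500), (4 / 25, 3 / 50), (9 / 50, 9 / 100)]
      ν (finrank ℝ V) F := by
  have hx : ((1 / (300 : ℕ) : ℚ) : ℝ) ≤ 1 / (finrank ℝ V : ℝ) :=
    H135.x_le (m2 := 300) (by omega) (by omega) (by norm_num) (by norm_num)
  exact H135.relU_cover (B := H484.bB200) (certs := H484.certsB200) (by decide +kernel)
    H684.okC_250_300 (by norm_num) (by omega) hx (by decide +kernel) (by omega) hW hF hmin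
    (by show 200 ≤ finrank ℝ V; omega) (Or.inr (by show finrank ℝ V ≤ 400; omega))

/-- **the relative tails**, `300 ≤ m ≤ 349` -/
theorem relF_300 [Nonempty M] (h1 : 300 ≤ finrank ℝ V) (h2 : finrank ℝ V ≤ 349)
    (hW : finrank ℝ W = finrank ℝ V + 2)
    {F : M → W} (hF : SphImm V F) (hmin : ∀ x n, IsUnitNormal V F x n → meanCurv V F x n = 0)
    {ν : ℝ} : H925.RelU (96 / 5 : ℚ) (53 / 4 : ℚ) V W M
      [(1 / 20, 29 / 2000), (17 / 200, 9 / 500), (1 / 10, 49 / 2000), (3 / 25, 7 / 250),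
      (7 / 50, 353 / 10000), (4 / 25, 47 / 1000), (9 / 50, 3 / 50)]
      ν (finrank ℝ V) F := by
  have hx : ((1 / (350 : ℕ) : ℚ) : ℝ) ≤ 1 / (finrank ℝ V : ℝ) :=
    H135.x_le (m2 := 350) (by omega) (by omega) (by norm_num) (by norm_num)
  exact H135.relU_cover (B := H484.bB200) (certs := H484.certsB200) (by decide +kernel)
    H684.okC_300_350 (by norm_num) (by omega) hx (by decide +kernel) (by omega) hW hF hmin
    (by show 200 ≤ finrank ℝ V; omega) (Or.inr (by show finrank ℝ V ≤ 400; omega))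

/-- **the relative tails**, `350 ≤ m ≤ 399` -/
theorem relF_350 [Nonempty M] (h1 : 350 ≤ finrank ℝ V) (h2 : finrank ℝ V ≤ 399)
    (hW : finrank ℝ W = finrank ℝ V + 2)
    {F : M → W} (hF : SphImm V F) (hmin : ∀ x n, IsUnitNormal V F x n → meanCurv V F x n = 0)
    {ν : ℝ} : H925.RelU (96 / 5 : ℚ) (53 / 4 : ℚ) V W M
      [
      (1 / 20, 3 / 250), (67 / 1000, 2 / 125), (17 / 200, 1 / 50), (1 / 10, 9 / 400),
      (11 / 100, 1 / 40), (23 / 200, 27 / 1000), (3 / 25, 71 / 2500), (1 / 8, 299 / 10000),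
      (13 / 100, 79 / 2500), (27 / 200, 67 / 2000), (7 / 50, 179 / 5000), (29 / 200, 77 / 2000),
      (3 / 20, 83 / 2000), (4 / 25, 57 / 1250), (9 / 50, 57 / 1000), (1 / 5, 3 / 25)]
      ν (finrank ℝ V) F := by
  have hx : ((1 / (400 : ℕ) : ℚ) : ℝ) ≤ 1 / (finrank ℝ V : ℝ) :=
    H135.x_le (m2 := 400) (by omega) (by omega) (by norm_num) (by norm_num)
  exact H135.relU_cover (B := H484.bB200) (certs := H484.certsB200) (by decide +kernel)
    H684.okC_350_400 (by norm_num) (by omega) hx (by decide +kernel) (by omega) hW hF hmin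
    (by show 200 ≤ finrank ℝ V; omega) (Or.inr (by show finrank ℝ V ≤ 400; omega))

end

end Vale.Agent.P224.R2.H684
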